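import Mathlib.MeasureTheory.Measure.Lebesgue.EqHaar
import Mathlib.Analysis.InnerProductSpace.PiL2
import Mathlib.MeasureTheory.Measure.Haar.InnerProductSpace

open MeasureTheory
open scoped ENNReal

namespace Vale.Agent.N121X

/-- Euclidean space. -/
abbrev R (d : ℕ) : Type := EuclideanSpace ℝ (Fin d)

variable {E : Type} [NormedAddCommGroup E]

/-- The Coulomb cost, `∞` when two points coincide. -/
noncomputable def cost (x y z : E) : ℝ≥0∞ := 1 / ‖x - y‖ₑ + 1 / ‖x - z‖ₑ + 1 / ‖y - z‖ₑ

variable [MeasurableSpace E]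

/-- The probability measures on triples whose three marginals are `μ`. -/
def Plans (μ : Measure E) : Set (Measure (E × E × E)) :=
  {π | IsProbabilityMeasure π ∧ π.fst = μ ∧ π.snd.fst = μ ∧ π.snd.snd = μ}

/-- The Kantorovich value. -/
noncomputable def value (μ : Measure E) : ℝ≥0∞ :=
  ⨅ π ∈ Plans μ, ∫⁻ p, cost p.1 p.2.1 p.2.2 ∂π

/-- The optimal plans. -/
def Optimal (μ : Measure E) : Set (Measure (E × E × E)) :=
  {π ∈ Plans μ | ∫⁻ p, cost p.1 p.2.1 p.2.2 ∂π = value μ}

/-- The union of the graphs of the maps `T i` over the first point. -/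
def graphs {E ι : Type} (T : ι → E → E × E) : Set (E × E × E) :=
  {p | ∃ i, p.2 = T i p.1}

/-- The masses that optimal plans give to unions of `m` Borel graphs. -/
def masses (μ : Measure E) (m : ℕ) : Set ℝ≥0∞ :=
  {r | ∃ π ∈ Optimal μ, ∃ T : Fin m → E → E × E, (∀ i, Measurable (T i)) ∧ π (graphs T) = r}

/-- One sequence of Borel graphs carries every optimal plan. -/
def Carried (μ : Measure E) : Prop :=
  ∃ T : ℕ → E → E × E, (∀ i, Measurable (T i)) ∧ ∀ π ∈ Optimal μ, π (graphs T) = 1

end Vale.Agent.N121X
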