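import Vale.Agent.N121X.Meas
import Vale.Agent.N121X.Defs

open MeasureTheory Set
open scoped ENNReal

namespace Vale.Agent.N121X

open Vale.Agent.P121 Vale.Agent.N121

variable {d : ℕ} {μ : Measure (R d)} [IsProbabilityMeasure μ]

theorem cost_eq (x y z : R d) : cost x y z = coulombCost (x, y, z) := by
  simp only [cost, coulombCost, one_div, edist_eq_enorm_sub]

theorem mem_plans {π : Measure (R d × R d × R d)} : π ∈ Plans μ ↔ IsCoupling μ π := by
  have h1 : π.snd.fst = π.map fun p => p.2.1 := Measure.map_map measurable_fst measurable_snd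
  have h2 : π.snd.snd = π.map fun p => p.2.2 := Measure.map_map measurable_snd measurable_snd
  rw [Plans, mem_ofPred_eq, h1, h2]
  refine ⟨fun h => h.2, fun h => ⟨⟨?_⟩, h⟩⟩
  rw [← measure_univ (μ := μ), ← h.1, Measure.map_apply measurable_fst MeasurableSet.univ,
    preimage_univ]

theorem value_eq : value μ = kantorovich μ := by
  simp only [value, kantorovich, mem_plans, cost_eq]

theorem mem_optimal {π : Measure (R d × R d × R d)} : π ∈ Optimal μ ↔ IsOptimal μ π := by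
  simp only [Optimal, mem_ofPred_eq, mem_plans, cost_eq, value_eq, IsOptimal]

theorem masses_eq (m : ℕ) : masses μ m = graphMass μ m := by
  simp only [masses, mem_optimal]
  rfl

theorem part2 (d : ℕ) (hd : 2 ≤ d) : ∃ μ : Measure (R d), IsProbabilityMeasure μ ∧ μ ≪ volume ∧
    value μ < ∞ ∧ (Optimal μ).Nonempty ∧ ∀ m : ℕ, ∃ r < 1, r ∈ upperBounds (masses μ m) := by
  obtain ⟨μ, h1, h2, h3, ⟨π, h4⟩, h5⟩ := main_inf d hd
  simp only [← masses_eq] at h5
  exact ⟨μ, h1, h2, value_eq (μ := μ) ▸ h3, ⟨π, mem_optimal.2 h4⟩, h5⟩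

theorem part3 (d : ℕ) (hd : 2 ≤ d) (a : ℕ → ℝ≥0∞) (ha : Antitone a) (hs : ∑' k, a k = 1 / 3) :
    ∃ μ : Measure (R d), IsProbabilityMeasure μ ∧ μ ≪ volume ∧ value μ < ∞ ∧ Carried μ ∧
      ∀ m : ℕ, 1 ≤ m → IsGreatest (masses μ m) (2 / 3 + ∑ k ∈ Finset.range m, a k) := by
  obtain ⟨μ, h1, h2, h3, -, h4, h5, T, hT, h6⟩ := main_d d hd ha hs
  simp only [← mem_optimal, ← masses_eq] at h4 h5 h6
  exact ⟨μ, h2, h1, value_eq (μ := μ) ▸ h3, ⟨T, hT, h6⟩, fun m hm => ⟨h5 m hm, h4 m⟩⟩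

end Vale.Agent.N121X
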