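import Vale.Agent.N121.Meas

/-! A central cluster with infinitely many pairs of satellites: the geometry. -/

open MeasureTheory Set Filter Topology Metric Function
open scoped RealInnerProductSpace ENNReal NNReal

namespace Vale.Agent.N121X

open Vale.Agent.P121 Vale.Agent.N121

variable {E : Type*} [NormedAddCommGroup E] [InnerProductSpace ℝ E]

theorem one_side {v x y : E} {δ : ℝ} (hv : ‖v‖ = 1) (hx : ‖x‖ ≤ 1 / 100) (hδ : δ ≤ 1 / 100)
    (hy : ‖y - v‖ ≤ δ) : 1 + ⟪v, x⟫ - ‖x‖ ^ 2 / 2 - 2 * δ ≤ ‖x - y‖⁻¹ := by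
  have h0 : ‖y - x - v‖ ≤ δ + ‖x‖ := by
    rw [sub_right_comm]
    exact (norm_sub_le _ _).trans (by linarith)
  have h1 := inv_norm_tangent (y - x) v (fun h => by
    rw [h, zero_sub, norm_neg, hv] at h0
    linarith) (fun h => by simp [h] at hv)
  have h2 : ⟪G v, y - x - v⟫ = ⟪v, y - v⟫ - ⟪v, x⟫ := by
    rw [sub_right_comm, G, hv, inner_sub_right]
    simp
  have h3 := (abs_le.1 (abs_real_inner_le_norm v (y - v))).2
  have h4 := (norm_nonneg _).trans hy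
  have h5 : ‖y - x - v‖ ^ 2 ≤ (δ + ‖x‖) ^ 2 := pow_le_pow_left₀ (norm_nonneg _) h0 2
  rw [h2, hv] at h1
  rw [hv] at h3
  rw [norm_sub_rev]
  nlinarith [norm_nonneg x]

theorem cross {u v x y z : E} {δ : ℝ} (hu : ‖u‖ = 1) (hv : ‖v‖ = 1) (hx : ‖x‖ ≤ 1 / 100)
    (hδ : δ ≤ 1 / 100) (hy : ‖y - v‖ ≤ δ) (hz : ‖z + u‖ ≤ δ)
    (hc : |⟪v - u, x⟫| ≤ ‖x‖ * ‖v - u‖ / 4) (hyz : y ≠ z) :
    UA x + 1 + 3 / 64 * ‖v - u‖ ^ 2 - 5 * δ ≤ cR x y z := by
  have h1 := one_side hv hx hδ hy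
  have h2 := one_side (v := -u) (y := z) (by rw [norm_neg, hu]) hx hδ (by rwa [sub_neg_eq_add])
  have h3 := real_tangent ‖y - z‖ 2 (norm_pos_iff.2 (sub_ne_zero.2 hyz)) two_pos
  have h4 : ‖y - z‖ ≤ ‖v + u‖ + 2 * δ := by
    rw [show y - z = (v + u) + (y - v) - (z + u) by abel]
    linarith [norm_sub_le ((v + u) + (y - v)) (z + u), norm_add_le (v + u) (y - v)]
  have h5 := parallelogram_law_with_norm ℝ v u
  have h6 := norm_add_le v u
  have h7 := (norm_nonneg _).trans hy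
  have h8 : ‖y - z‖ ^ 2 ≤ (‖v + u‖ + 2 * δ) ^ 2 := pow_le_pow_left₀ (norm_nonneg _) h4 2
  rw [hu, hv] at h5 h6
  have h9 : ‖y - z‖ ^ 2 ≤ 4 - ‖v - u‖ ^ 2 + 9 * δ := by nlinarith [norm_nonneg (v + u)]
  rw [inner_neg_left] at h2
  rw [inner_sub_left] at hc
  have h10 := (abs_le.1 hc).1
  unfold UA cR
  nlinarith [sq_nonneg (‖x‖ - ‖v - u‖ / 8)]

theorem cone {e u v x : E} {t : ℝ} (he : ‖e‖ = 1) (hu : ‖u‖ = 1) (hv : ‖v‖ = 1)
    (hue : ‖u - e‖ ≤ 1 / 20) (hve : ‖v - e‖ ≤ 1 / 20) (ht : 0 < t)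
    (hx : x ∈ ball (t • e) (t / 10)) : |⟪v - u, x⟫| ≤ ‖x‖ * ‖v - u‖ / 4 := by
  rw [mem_ball, dist_eq_norm] at hx
  have h1 : ⟪v - u, x⟫ = ⟪v - u, x - t • e⟫ - t / 2 * (⟪v - u, u - e⟫ + ⟪v - u, v - e⟫) := by
    simp only [inner_sub_left, inner_sub_right, inner_smul_right, real_inner_self_eq_norm_sq, hu,
      hv, real_inner_comm u v]
    ring
  have h2 : t ≤ ‖x‖ + ‖x - t • e‖ := by
    have := norm_sub_le x (x - t • e)
    rwa [sub_sub_cancel, norm_smul, he, mul_one, Real.norm_of_nonneg ht.le] at this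
  have h0 := norm_nonneg (v - u)
  have h3 := abs_le.1 ((abs_real_inner_le_norm (v - u) (x - t • e)).trans
    (mul_le_mul_of_nonneg_left hx.le h0))
  have h4 := abs_le.1 ((abs_real_inner_le_norm (v - u) (u - e)).trans
    (mul_le_mul_of_nonneg_left hue h0))
  have h5 := abs_le.1 ((abs_real_inner_le_norm (v - u) (v - e)).trans
    (mul_le_mul_of_nonneg_left hve h0))
  have h6 : 9 / 10 * t * ‖v - u‖ ≤ ‖x‖ * ‖v - u‖ := mul_le_mul_of_nonneg_right (by linarith) h0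
  have h7 := mul_nonneg ht.le h0
  rw [h1, abs_le]
  constructor <;> nlinarith

theorem exists_dirs {e₁ e₂ : E} (h1 : ‖e₁‖ = 1) (h2 : ‖e₂‖ = 1) (h12 : ⟪e₁, e₂⟫ = 0) :
    ∃ (w : ℕ → E) (δ : ℕ → ℝ), (∀ k, 0 < δ k ∧ δ k ≤ 1 / 100 ∧ ‖w k‖ = 1 ∧ ‖w k - e₁‖ ≤ 1 / 20) ∧
      ∀ k l, k ≠ l → 300 * δ k ≤ ‖w k - w l‖ ^ 2 := by
  have h21 : ⟪e₂, e₁⟫ = 0 := by rw [real_inner_comm, h12]
  let c : ℕ → ℝ := fun k => (1 / 2) ^ k / 40
  have c0 : ∀ k, 0 < c k := fun k => by positivity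
  have c1 : ∀ k l, k < l → c l ≤ c k / 2 := fun k l h => by
    have := pow_le_pow_of_le_one (a := (1 / 2 : ℝ)) (by norm_num) (by norm_num) h
    rw [pow_succ] at this
    simp only [c]
    linarith
  have c2 : ∀ k, c k ≤ 1 / 40 := fun k =>
    div_le_div_of_nonneg_right (pow_le_one₀ (by norm_num) (by norm_num)) (by norm_num)
  have n : ∀ a b : ℝ, ‖a • e₁ + b • e₂‖ ^ 2 = a ^ 2 + b ^ 2 := fun a b => by
    rw [norm_add_sq_real, inner_smul_left, inner_smul_right, h12, norm_smul, norm_smul, h1, h2]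
    simp
  have s : ∀ k, √(1 - c k ^ 2) ^ 2 = 1 - c k ^ 2 := fun k =>
    Real.sq_sqrt (by nlinarith [c0 k, c2 k])
  refine ⟨fun k => √(1 - c k ^ 2) • e₁ + c k • e₂, fun k => c k ^ 2 / 1200, fun k =>
    ⟨by have := c0 k; positivity, by nlinarith [c0 k, c2 k], ?_, ?_⟩, fun k l hkl => ?_⟩
  · rw [← sq_eq_sq₀ (norm_nonneg _) zero_le_one, n, s]
    ring
  · refine (sq_le_sq₀ (norm_nonneg _) (by norm_num)).1 ?_
    rw [show √(1 - c k ^ 2) • e₁ + c k • e₂ - e₁ = (√(1 - c k ^ 2) - 1) • e₁ + c k • e₂ by module,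
      n]
    have h3 : 1 - c k ^ 2 ≤ √(1 - c k ^ 2) :=
      Real.le_sqrt_of_sq_le (by
      have h4 : 0 ≤ 1 - c k ^ 2 := by nlinarith [c0 k, c2 k]
      nlinarith [mul_nonneg (sq_nonneg (c k)) h4])
    nlinarith [s k, c0 k, c2 k]
  · simp only
    rw [show √(1 - c k ^ 2) • e₁ + c k • e₂ - (√(1 - c l ^ 2) • e₁ + c l • e₂) =
      (√(1 - c k ^ 2) - √(1 - c l ^ 2)) • e₁ + (c k - c l) • e₂ by module, n]
    rcases hkl.lt_or_gt with h | h <;>
      nlinarith [c1 _ _ h, c0 k, c0 l, sq_nonneg (√(1 - c k ^ 2) - √(1 - c l ^ 2))]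

theorem pack [FiniteDimensional ℝ E] [MeasurableSpace E] [BorelSpace E] {e : E} (he : ‖e‖ = 1)
    {δ : ℝ} (hδ : 0 < δ) (hδ1 : δ ≤ 1 / 100) : ∃ (ε : ℝ) (Y Z : E → E) (K : ℝ≥0),
      Measurable Y ∧ Measurable Z ∧ LocalPack e ε Y Z ∧ ∀ x ∈ ball (0 : E) ε,
        (‖Y x - e‖ ≤ δ ∧ ‖Z x + e‖ ≤ δ ∧ |UB e (Y x) - 1 / 2| ≤ 2 * δ ∧
          |UC e Y Z x - 1 / 2| ≤ 4 * δ) ∧
        ∀ x' ∈ ball (0 : E) ε, ‖x - x'‖ ≤ K * ‖Y x - Y x'‖ ∧ ‖x - x'‖ ≤ K * ‖Z x - Z x'‖ := by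
  classical
  obtain ⟨ε, Y₀, Z₀, K, hε, hε1, hK, hY₀, hZ₀, hpk, hlip₀⟩ := local_package e he δ hδ
  set D := ball (0 : E) ε with hD
  have hDm : MeasurableSet D := isOpen_ball.measurableSet
  obtain ⟨Y, hY, hYe⟩ : ∃ Y : E → E, Measurable Y ∧ ∀ x ∈ D, Y x = Y₀ x :=
    ⟨_, hY₀.measurable_piecewise (continuousOn_const (c := 0)) hDm,
      fun x hx => Set.piecewise_eq_of_mem _ _ _ hx⟩
  obtain ⟨Z, hZ, hZe⟩ : ∃ Z : E → E, Measurable Z ∧ ∀ x ∈ D, Z x = Z₀ x :=
    ⟨_, hZ₀.measurable_piecewise (continuousOn_const (c := 0)) hDm,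
      fun x hx => Set.piecewise_eq_of_mem _ _ _ hx⟩
  have hq : ∀ x ∈ D, ‖Y x - e‖ < δ ∧ ‖Z x + e‖ < δ ∧ eqA x (Y x) (Z x) = 0 ∧
      eqB e x (Y x) (Z x) = 0 ∧ |cR x (Y x) (Z x) - 5 / 2| < δ := fun x hx => by
    rw [hYe x hx, hZe x hx, ← cR_base e he]
    exact hpk x hx
  refine ⟨ε, Y, Z, ⟨K, hK.le⟩, hY, hZ, ⟨hε, hε1.trans hδ1, fun x hx => (hq x hx).1.trans_le hδ1,
    fun x hx => (hq x hx).2.1.trans_le hδ1, fun x hx => (hq x hx).2.2.1,
    fun x hx => (hq x hx).2.2.2.1, fun x hx => (hq x hx).2.2.2.2.trans_le hδ1⟩, fun s hs => ⟨?_,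
    fun t ht => ?_⟩⟩
  · have h0 := (mem_ball_zero_iff.1 hs).trans_le hε1
    have h1 := (hq s hs).1
    have h2 := abs_le.1 (abs_real_inner_le_norm e (Y s - e))
    have h3 := abs_lt.1 (hq s hs).2.2.2.2
    rw [he, one_mul] at h2
    have h4 : |UA s - 3 / 2| ≤ δ := by
      unfold UA
      rw [abs_le]
      constructor <;> nlinarith [norm_nonneg s]
    have h5 : |UB e (Y s) - 1 / 2| ≤ 2 * δ := by
      unfold UB
      rw [abs_le]
      constructor <;> nlinarith [norm_nonneg (Y s - e)]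
    refine ⟨h1.le, (hq s hs).2.1.le, h5, ?_⟩
    rw [abs_le] at h4 h5 ⊢
    unfold UC
    constructor <;> linarith
  · rw [hYe s hs, hYe t ht, hZe s hs, hZe t ht]
    exact hlip₀ s hs t ht

/-- The domains of the clusters. -/
def DD (D : ℕ → Set E) : Option (ℕ × Bool) → Set E
  | none => D 0
  | some a => D a.1

/-- The six orderings of three points. -/
def perms (a b c : E) : Set (E × E × E) :=
  {(a, b, c), (a, c, b), (b, a, c), (b, c, a), (c, a, b), (c, b, a)}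

/-- `σ` is at most the cost, with equality only on the branches. -/
def Q (D : ℕ → Set E) (P : Option (ℕ × Bool) → E → E) (a b c : E) (σ : ℝ≥0∞) : Prop :=
  σ ≤ coulombCost (a, b, c) ∧ (coulombCost (a, b, c) = σ →
    ∃ k, ∃ x ∈ D k, (a, b, c) ∈ perms x (P (some (k, true)) x) (P (some (k, false)) x))

omit [InnerProductSpace ℝ E] in
theorem Q.s12 {D : ℕ → Set E} {P : Option (ℕ × Bool) → E → E} {a b c : E} {σ : ℝ≥0∞}
    (h : Q D P a b c σ) : Q D P b a c σ := by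
  have h1 : coulombCost (b, a, c) = coulombCost (a, b, c) := by
    simp only [coulombCost]
    rw [edist_comm b a, add_right_comm]
  rw [Q, h1]
  refine ⟨h.1, fun h2 => ?_⟩
  obtain ⟨k, x, hx, h3⟩ := h.2 h2
  refine ⟨k, x, hx, ?_⟩
  simp only [perms, mem_insert_iff, mem_singleton_iff, Prod.mk.injEq] at h3 ⊢
  tauto

omit [InnerProductSpace ℝ E] in
theorem Q.s23 {D : ℕ → Set E} {P : Option (ℕ × Bool) → E → E} {a b c : E} {σ : ℝ≥0∞}
    (h : Q D P a b c σ) : Q D P a c b σ := by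
  have h1 : coulombCost (a, c, b) = coulombCost (a, b, c) := by
    simp only [coulombCost]
    rw [edist_comm c b, add_comm (edist a c)⁻¹]
  rw [Q, h1]
  refine ⟨h.1, fun h2 => ?_⟩
  obtain ⟨k, x, hx, h3⟩ := h.2 h2
  refine ⟨k, x, hx, ?_⟩
  simp only [perms, mem_insert_iff, mem_singleton_iff, Prod.mk.injEq] at h3 ⊢
  tauto

/-- The data of the construction. -/
structure Cfg [MeasurableSpace E] (D : ℕ → Set E) (P : Option (ℕ × Bool) → E → E)
    (u : Option (ℕ × Bool) → E → ℝ≥0∞) : Prop where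
  anti : Antitone D
  mD : ∀ k, MeasurableSet (D k)
  P0 : ∀ x, P none x = x
  mP : ∀ i, Measurable (P i)
  inj : ∀ i j, ∀ s ∈ DD D i, ∀ t ∈ DD D j, P i s = P j t → i = j ∧ s = t
  mu : ∀ i, Measurable (u i)
  bdd : ∀ i, ∀ s ∈ DD D i, u i s ≤ 2
  eq : ∀ k, ∀ s ∈ D k, coulombCost (s, P (some (k, true)) s, P (some (k, false)) s) =
    u none s + u (some (k, true)) s + u (some (k, false)) s
  le : ∀ i j l, ∀ s ∈ DD D i, ∀ t ∈ DD D j, ∀ r ∈ DD D l,
    Q D P (P i s) (P j t) (P l r) (u i s + u j t + u l r)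

/-- The centres of the three zones. -/
def cz (e : E) : Option (ℕ × Bool) → E
  | none => 0
  | some (_, true) => e
  | some (_, false) => -e

theorem exists_cfg [FiniteDimensional ℝ E] [MeasurableSpace E] [BorelSpace E] {e₁ e₂ : E}
    (h1 : ‖e₁‖ = 1) (h2 : ‖e₂‖ = 1) (h12 : ⟪e₁, e₂⟫ = 0) :
    ∃ (τ : ℕ → ℝ) (P : Option (ℕ × Bool) → E → E) (u : Option (ℕ × Bool) → E → ℝ≥0∞),
      (∀ j, 0 < τ j) ∧ (Pairwise (Disjoint on fun j => ball (τ j • e₁) (τ j / 10))) ∧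
      Cfg (fun k => ⋃ j ≥ k, ball (τ j • e₁) (τ j / 10)) P u ∧
      ∀ i, ∃ K : ℝ≥0, ∀ s ∈ DD (fun k => ⋃ j ≥ k, ball (τ j • e₁) (τ j / 10)) i,
        ∀ t ∈ DD (fun k => ⋃ j ≥ k, ball (τ j • e₁) (τ j / 10)) i,
          ‖s - t‖ ≤ K * ‖P i s - P i t‖ := by
  obtain ⟨w, δ, hw, hsep⟩ := exists_dirs h1 h2 h12
  choose ε Y Z K hY hZ hp hq using fun k => pack (hw k).2.2.1 (hw k).1 (hw k).2.1
  obtain ⟨τ, τ0, τ1, τ2⟩ : ∃ τ : ℕ → ℝ, (∀ j, 0 < τ j) ∧ (∀ i j, i < j → τ j ≤ τ i / 2) ∧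
      ∀ j, τ j ≤ ε j / 2 := by
    let τ : ℕ → ℝ := fun j => Nat.rec (ε 0 / 2) (fun j t => min t (ε (j + 1)) / 2) j
    have a0 : ∀ j, 0 < τ j := fun j => by
      induction j with
      | zero => exact half_pos (hp 0).pos
      | succ j ih => exact half_pos (lt_min ih (hp _).pos)
    have a1 : ∀ j, τ (j + 1) ≤ τ j / 2 := fun j =>
      div_le_div_of_nonneg_right (min_le_left _ _) two_pos.le
    refine ⟨τ, a0, fun i j hij => (antitone_nat_of_succ_le (fun j => (a1 j).trans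
      (half_le_self (a0 j).le)) hij).trans (a1 i), fun j => ?_⟩
    cases j
    exacts [le_rfl, div_le_div_of_nonneg_right (min_le_right _ _) two_pos.le]
  have hn : ∀ j, ∀ x ∈ ball (τ j • e₁) (τ j / 10), |‖x‖ - τ j| < τ j / 10 := fun j x hx => by
    have := abs_norm_sub_norm_le x (τ j • e₁)
    rw [norm_smul, h1, mul_one, Real.norm_of_nonneg (τ0 j).le] at this
    exact this.trans_lt (by rwa [← dist_eq_norm])
  set D : ℕ → Set E := fun k => ⋃ j ≥ k, ball (τ j • e₁) (τ j / 10) with hD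
  have hDε : ∀ k, ∀ x ∈ D k, x ∈ ball (0 : E) (ε k) := fun k x hx => by
    obtain ⟨j, hj, hx⟩ := mem_iUnion₂.1 hx
    have a1 := (abs_lt.1 (hn j x hx)).2
    have a2 : τ j ≤ τ k := hj.eq_or_lt.elim (fun h => h ▸ le_rfl) fun h =>
      (τ1 _ _ h).trans (half_le_self (τ0 k).le)
    rw [mem_ball_zero_iff]
    linarith [τ2 k, τ0 k]
  have hanti : Antitone D := fun k l hkl => biUnion_subset_biUnion_left fun j hj => hkl.trans hj
  have hD1 : ∀ x ∈ D 0, ‖x‖ ≤ 1 / 100 := fun x hx =>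
    ((mem_ball_zero_iff.1 (hDε 0 x hx)).trans_le (hp 0).le).le
  let P : Option (ℕ × Bool) → E → E := fun i => match i with
    | none => fun x => x
    | some (k, true) => Y k
    | some (k, false) => Z k
  let v : Option (ℕ × Bool) → E → ℝ := fun i => match i with
    | none => UA
    | some (k, true) => fun x => UB (w k) (Y k x)
    | some (k, false) => UC (w k) (Y k) (Z k)
  have bdd : ∀ i, ∀ s ∈ DD D i, 0 ≤ v i s ∧ v i s ≤ 2 := by
    rintro (_ | ⟨k, _ | _⟩) s hs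
    · have := hD1 s hs
      simp only [v, UA]
      constructor <;> nlinarith [norm_nonneg s]
    · have := abs_le.1 (hq k s (hDε k s hs)).1.2.2.2
      constructor <;> linarith [(hw k).2.1]
    · have := abs_le.1 (hq k s (hDε k s hs)).1.2.2.1
      constructor <;> linarith [(hw k).2.1]
  have hsum : ∀ i j l, ∀ s ∈ DD D i, ∀ t ∈ DD D j, ∀ r ∈ DD D l, ENNReal.ofReal (v i s) +
      ENNReal.ofReal (v j t) + ENNReal.ofReal (v l r) = ENNReal.ofReal (v i s + v j t + v l r) :=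
    fun i j l s hs t ht r hr => by
      rw [ENNReal.ofReal_add (add_nonneg (bdd i s hs).1 (bdd j t ht).1) (bdd l r hr).1,
        ENNReal.ofReal_add (bdd i s hs).1 (bdd j t ht).1]
  have near : ∀ i, ∀ s ∈ DD D i, ‖P i s - cz e₁ i‖ ≤ 3 / 50 := by
    rintro (_ | ⟨k, _ | _⟩) s hs
    · simpa [P, cz] using (hD1 s hs).trans (by norm_num : (1 / 100 : ℝ) ≤ 3 / 50)
    · rw [show P (some (k, false)) s - cz e₁ (some (k, false)) = (Z k s + w k) - (w k - e₁) by
        simp only [P, cz]; abel]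
      linarith [norm_sub_le (Z k s + w k) (w k - e₁), (hq k s (hDε k s hs)).1.2.1, (hw k).2.1,
        (hw k).2.2.2]
    · linarith [norm_sub_le_norm_sub_add_norm_sub (Y k s) (w k) e₁, (hq k s (hDε k s hs)).1.1,
        (hw k).2.1, (hw k).2.2.2, show P (some (k, true)) s - cz e₁ (some (k, true)) =
          Y k s - e₁ from rfl, congrArg norm (show P (some (k, true)) s -
            cz e₁ (some (k, true)) = Y k s - e₁ from rfl)]
  have far : ∀ i j, ∀ s ∈ DD D i, ∀ t ∈ DD D j, i.map Prod.snd ≠ j.map Prod.snd →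
      P i s ≠ P j t := fun i j s hs t ht hij h => by
    have a1 : ‖cz e₁ i - cz e₁ j‖ ≤ 3 / 25 := by
      have := near i s hs
      rw [h, norm_sub_rev] at this
      linarith [norm_sub_le_norm_sub_add_norm_sub (cz e₁ i) (P j t) (cz e₁ j), near j t ht]
    have a2 : ‖e₁ + e₁‖ = 2 := by rw [← two_smul ℝ, norm_smul, h1]; simp
    rcases i with _ | ⟨k, _ | _⟩ <;> rcases j with _ | ⟨l, _ | _⟩ <;>
      simp only [cz, Option.map, ne_eq, not_true_eq_false, zero_sub, sub_zero, norm_neg, h1,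
        sub_neg_eq_add, zero_add, ← neg_add', a2] at hij a1 <;> linarith
  have same : ∀ i j l, ∀ s ∈ DD D i, ∀ t ∈ DD D j, ∀ r ∈ DD D l,
      i.map Prod.snd = j.map Prod.snd → ∀ σ, σ = v i s + v j t + v l r →
      Q D P (P i s) (P j t) (P l r) (ENNReal.ofReal σ) := fun i j l s hs t ht r hr hij σ hσ => by
    have a0 : cz e₁ i = cz e₁ j := by
      rcases i with _ | ⟨k, _ | _⟩ <;> rcases j with _ | ⟨l, _ | _⟩ <;>
        first | rfl | simp at hij
    have a1 : dist (P i s) (P j t) ≤ 3 / 25 := by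
      have := near i s hs
      rw [a0, ← dist_eq_norm] at this
      linarith [dist_triangle_right (P i s) (P j t) (cz e₁ j), near j t ht,
        dist_eq_norm (P j t) (cz e₁ j)]
    have a2 : ENNReal.ofReal σ < coulombCost (P i s, P j t, P l r) := by
      refine lt_of_lt_of_le (b := (ENNReal.ofReal (3 / 25))⁻¹) ?_ (le_trans ?_
        (le_self_add.trans le_self_add))
      · rw [← ENNReal.ofReal_inv_of_pos (by norm_num), ENNReal.ofReal_lt_ofReal_iff (by norm_num)]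
        linarith [(bdd i s hs).2, (bdd j t ht).2, (bdd l r hr).2]
      · rw [ENNReal.inv_le_inv, edist_dist]
        exact ENNReal.ofReal_le_ofReal a1
    exact ⟨a2.le, fun h => absurd h a2.ne'⟩
  have lip : ∀ i, ∃ K : ℝ≥0, ∀ s ∈ DD D i, ∀ t ∈ DD D i, ‖s - t‖ ≤ K * ‖P i s - P i t‖ := by
    rintro (_ | ⟨k, _ | _⟩)
    · exact ⟨1, fun s _ t _ => by simp [P]⟩
    · exact ⟨K k, fun s hs t ht => ((hq k s (hDε k s hs)).2 t (hDε k t ht)).2⟩
    · exact ⟨K k, fun s hs t ht => ((hq k s (hDε k s hs)).2 t (hDε k t ht)).1⟩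
  have key : ∀ k l, ∀ s ∈ D 0, ∀ t ∈ D k, ∀ r ∈ D l, ∀ σ,
      σ = v none s + v (some (k, true)) t + v (some (l, false)) r →
      Q D P (P none s) (P (some (k, true)) t) (P (some (l, false)) r) (ENNReal.ofReal σ) := by
    intro k l s hs t ht r hr σ hσ
    have n1 := far none (some (k, true)) s hs t ht (by simp)
    have n2 := far none (some (l, false)) s hs r hr (by simp)
    have n3 := far (some (k, true)) (some (l, false)) t ht r hr (by simp)
    have n4 : 0 ≤ σ := hσ ▸ add_nonneg (add_nonneg (bdd none s hs).1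
      (bdd (some (k, true)) t ht).1) (bdd (some (l, false)) r hr).1
    rw [Q, ofReal_cR_le _ _ _ n1 n2 n3, ENNReal.ofReal_eq_ofReal_iff (by unfold cR; positivity) n4]
    by_cases hkl : k = l
    · subst hkl
      have h := spec012 (hw k).2.2.1 (hp k) (hDε k r hr) n1 n2 n3
      refine ⟨ENNReal.ofReal_le_ofReal (hσ ▸ h.1), fun h3 => ⟨k, r, hr, Or.inl ?_⟩⟩
      obtain ⟨h4, h5⟩ := h.2 (h3.trans hσ).symm
      exact Prod.ext h4 (Prod.ext h5 rfl)
    · obtain ⟨j, -, hj⟩ := mem_iUnion₂.1 hs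
      have a1 := hsep k l hkl
      have a2 := hsep l k (Ne.symm hkl)
      rw [norm_sub_rev] at a2
      have b1 := (hq k t (hDε k t ht)).1
      have b2 := (hq l r (hDε l r hr)).1
      have h := cross (δ := max (δ k) (δ l)) (hw l).2.2.1 (hw k).2.2.1 (hD1 s hs)
        (max_le (hw k).2.1 (hw l).2.1) (b1.1.trans (le_max_left _ _))
        (b2.2.1.trans (le_max_right _ _))
        (cone h1 (hw l).2.2.1 (hw k).2.2.1 (hw l).2.2.2 (hw k).2.2.2 (τ0 j) hj) n3
      have a3 : max (δ k) (δ l) ≤ ‖w k - w l‖ ^ 2 / 300 := max_le (by linarith) (by linarith)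
      have a4 : σ < cR s (Y k t) (Z l r) := by
        simp only [hσ, v]
        linarith [(abs_le.1 b1.2.2.1).2, (abs_le.1 b2.2.2.2).2, (hw k).1]
      exact ⟨ENNReal.ofReal_le_ofReal a4.le, fun h3 => absurd h3 a4.ne'⟩
  refine ⟨τ, P, fun i s => ENNReal.ofReal (v i s), τ0, ?_, ⟨hanti, fun k => ?_, fun _ => rfl, ?_,
    ?_, ?_, fun i s hs => (ENNReal.ofReal_le_ofReal (bdd i s hs).2).trans (by simp), ?_, ?_⟩, lip⟩
  · refine (pairwise_disjoint_on _).2 fun i j hij => disjoint_left.2 fun x a1 a2 => ?_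
    linarith [abs_lt.1 (hn i x a1), abs_lt.1 (hn j x a2), τ1 i j hij, τ0 i]
  · exact (isOpen_biUnion fun _ _ => isOpen_ball).measurableSet
  · rintro (_ | ⟨k, _ | _⟩)
    exacts [measurable_id, hZ k, hY k]
  · intro i j s hs t ht h
    have a0 : ∀ k l, k ≠ l → δ k + δ l < ‖w k - w l‖ := fun k l hkl => by
      have a1 := hsep k l hkl
      have a2 := hsep l k (Ne.symm hkl)
      have a3 := norm_sub_le (w k) (w l)
      rw [norm_sub_rev] at a2
      rw [(hw k).2.2.1, (hw l).2.2.1] at a3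
      nlinarith [norm_nonneg (w k - w l), (hw k).1]
    obtain rfl : i = j := by
      by_contra hij
      refine far i j s hs t ht (fun h3 => ?_) h
      rcases i with _ | ⟨k, _ | _⟩ <;> rcases j with _ | ⟨l, _ | _⟩ <;> simp at h3 hij
      · have a1 := (hq k s (hDε k s hs)).1.2.1
        have a2 := norm_sub_le (Z k s + w k) (Z l t + w l)
        rw [show Z k s = Z l t from h, add_sub_add_left_eq_sub] at a2
        rw [show Z k s = Z l t from h] at a1
        linarith [a0 k l hij, (hq l t (hDε l t ht)).1.2.1]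
      · have a1 := (hq k s (hDε k s hs)).1.1
        rw [show Y k s = Y l t from h, norm_sub_rev] at a1
        linarith [a0 k l hij, (hq l t (hDε l t ht)).1.1,
          norm_sub_le_norm_sub_add_norm_sub (w k) (Y l t) (w l)]
    obtain ⟨K, hK⟩ := lip i
    have := hK s hs t ht
    rw [h, sub_self, norm_zero, mul_zero] at this
    exact ⟨rfl, sub_eq_zero.1 (norm_le_zero_iff.1 this)⟩
  · have hA : Measurable (UA : E → ℝ) := by
      unfold UA
      fun_prop
    have hB : ∀ e : E, Measurable (UB e : E → ℝ) := fun e => by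
      unfold UB
      fun_prop
    rintro (_ | ⟨k, _ | _⟩)
    exacts [hA.ennreal_ofReal, (((cR_measurable measurable_id (hY k) (hZ k)).sub hA).sub
      ((hB _).comp (hY k))).ennreal_ofReal, ((hB _).comp (hY k)).ennreal_ofReal]
  · intro k s hs
    have h0 : s ∈ D 0 := hanti k.zero_le hs
    rw [hsum none (some (k, true)) (some (k, false)) s h0 s hs s hs,
      ofReal_cR_le _ _ _ (far none (some (k, true)) s h0 s hs (by simp))
        (far none (some (k, false)) s h0 s hs (by simp))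
        (far (some (k, true)) (some (k, false)) s hs s hs (by simp))]
    simp only [v, P, UC]
    congr 1
    ring
  · intro i j l s hs t ht r hr
    rw [hsum i j l s hs t ht r hr]
    by_cases a1 : i.map Prod.snd = j.map Prod.snd
    · exact same i j l s hs t ht r hr a1 _ rfl
    by_cases a2 : i.map Prod.snd = l.map Prod.snd
    · exact (same i l j s hs r hr t ht a2 _ (by ring)).s23
    by_cases a3 : j.map Prod.snd = l.map Prod.snd
    · exact (same j l i t ht r hr s hs a3 _ (by ring)).s23.s12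
    rcases i with _ | ⟨i, _ | _⟩ <;> rcases j with _ | ⟨j, _ | _⟩ <;>
      rcases l with _ | ⟨l, _ | _⟩ <;> simp at a1 a2 a3
    · exact (key l j s hs r hr t ht _ (by ring)).s23
    · exact key j l s hs t ht r hr _ rfl
    · exact (key l i t ht r hr s hs _ (by ring)).s23.s12
    · exact (key j i r hr t ht s hs _ (by ring)).s12.s23.s12
    · exact (key i l t ht s hs r hr _ (by ring)).s12
    · exact (key i j r hr s hs t ht _ (by ring)).s12.s23

end Vale.Agent.N121X
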