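import Vale.Agent.N121X.Geo

/-! A central cluster with infinitely many pairs of satellites: the measures. -/

open MeasureTheory Set Metric Filter Function
open scoped ENNReal NNReal RealInnerProductSpace Topology

namespace Vale.Agent.N121X

open Vale.Agent.P121 Vale.Agent.N121

variable {E : Type*} [NormedAddCommGroup E] [MeasurableSpace E] [BorelSpace E]
  [SecondCountableTopology E] [CompleteSpace E]

theorem glue {ι β : Type*} [Countable ι] [MeasurableSpace β] [Nonempty β] {D : ι → Set E}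
    (hD : ∀ i, MeasurableSet (D i)) {P : ι → E → E} (hP : ∀ i, Measurable (P i))
    (hinj : ∀ i j, ∀ s ∈ D i, ∀ t ∈ D j, P i s = P j t → i = j ∧ s = t) {f : ι → E → β}
    (hf : ∀ i, Measurable (f i)) :
    ∃ g : E → β, Measurable g ∧ ∀ i, ∀ s ∈ D i, g (P i s) = f i s := by
  let _ : MeasurableSpace ι := ⊤
  have : DiscreteMeasurableSpace ι := ⟨fun _ => trivial⟩
  have hS : MeasurableSet {q : ι × E | q.2 ∈ D q.1} := measurableSet_setOfPred.2
    (measurable_from_prod_countable_right fun i => measurableSet_setOfPred.1 (hD i))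
  have := hS.standardBorel
  have h1 : Measurable fun q : {q : ι × E | q.2 ∈ D q.1} => P q.1.1 q.1.2 :=
    (measurable_from_prod_countable_right (f := fun q : ι × E => P q.1 q.2) hP).comp
      measurable_subtype_coe
  have h2 : Measurable fun q : {q : ι × E | q.2 ∈ D q.1} => f q.1.1 q.1.2 :=
    (measurable_from_prod_countable_right (f := fun q : ι × E => f q.1 q.2) hf).comp
      measurable_subtype_coe
  have h3 : Injective fun q : {q : ι × E | q.2 ∈ D q.1} => P q.1.1 q.1.2 := fun q r h =>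
    Subtype.ext (Prod.ext (hinj _ _ _ q.2 _ r.2 h).1 (hinj _ _ _ q.2 _ r.2 h).2)
  obtain ⟨g, hg, h4⟩ := (h1.measurableEmbedding h3).exists_measurable_extend h2
    fun _ => inferInstance
  exact ⟨g, hg, fun i s hs => congrFun h4 ⟨(i, s), hs⟩⟩

/-- The marginal. -/
noncomputable def mu (ν : ℕ → Measure E) (P : Option (ℕ × Bool) → E → E) : Measure E :=
  Measure.sum fun k => ν k + (ν k).map (P (some (k, true))) + (ν k).map (P (some (k, false)))

/-- The optimal plan. -/
noncomputable def plan (ν : ℕ → Measure E) (P : Option (ℕ × Bool) → E → E) :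
    Measure (E × E × E) :=
  Measure.sum fun k => branch (ν k) (P (some (k, true))) (P (some (k, false)))

variable {P : Option (ℕ × Bool) → E → E} {D : ℕ → Set E}

omit [NormedAddCommGroup E] [BorelSpace E] [SecondCountableTopology E] [CompleteSpace E] in
theorem mu_apply {ν : ℕ → Measure E} (hP : ∀ i, Measurable (P i)) {A : Set E}
    (hA : MeasurableSet A) :
    mu ν P A = ∑' k, ν k A + ∑' a : ℕ × Bool, ν a.1 (P (some a) ⁻¹' A) := by
  simp only [mu, Measure.sum_apply _ hA, Measure.add_apply, Measure.map_apply (hP _) hA,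
    ENNReal.tsum_prod', tsum_fintype, Fintype.sum_bool, ENNReal.tsum_add, add_assoc]

omit [BorelSpace E] [SecondCountableTopology E] [CompleteSpace E] in
theorem plan_coupling {ν : ℕ → Measure E} (hP : ∀ i, Measurable (P i)) :
    IsCoupling (mu ν P) (plan ν P) := by
  have h := fun k => branch_marginals (ν k) (hP (some (k, true))) (hP (some (k, false)))
  refine ⟨?_, ?_, ?_⟩
  · rw [plan, Measure.map_sum measurable_fst.aemeasurable]
    exact congrArg _ (funext fun k => (h k).1)
  · rw [plan, Measure.map_sum measurable_snd.fst.aemeasurable]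
    exact congrArg _ (funext fun k => (h k).2.1)
  · rw [plan, Measure.map_sum measurable_snd.snd.aemeasurable]
    exact congrArg _ (funext fun k => (h k).2.2)

theorem abstr {u : Option (ℕ × Bool) → E → ℝ≥0∞} (c : Cfg D P u) (η : Measure E)
    (hη : ∑' k, η (D k) = 1 / 3) {μ : Measure E} (hμ : μ = mu (fun k => η.restrict (D k)) P) :
    IsProbabilityMeasure μ ∧ kantorovich μ < ⊤ ∧ (∃ π, IsOptimal μ π) ∧
      (∀ m, 2 / 3 + ∑ k ∈ Finset.range m, η (D k) ∈ upperBounds (graphMass μ m)) ∧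
      (∀ m, 1 ≤ m → 2 / 3 + ∑ k ∈ Finset.range m, η (D k) ∈ graphMass μ m) ∧
      ∃ T : ℕ → E → E × E, (∀ i, Measurable (T i)) ∧
        ∀ π, IsOptimal μ π → π {p | ∃ i, p.2 = T i p.1} = 1 := by
  set ν : ℕ → Measure E := fun k => η.restrict (D k) with hν
  have hP := c.mP
  have hD : ∀ i, MeasurableSet (DD D i) := by
    rintro (_ | a)
    exacts [c.mD _, c.mD _]
  have h0 : ∀ k, D k ⊆ D 0 := fun k => c.anti k.zero_le
  have hνu : ∀ k, ν k univ = η (D k) := fun k => Measure.restrict_apply_univ _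
  have hνD : ∀ k, ν k (D k)ᶜ = 0 := fun k => by simp [hν, Measure.restrict_apply (c.mD k).compl]
  have hDa : ∀ k, ∀ᵐ x ∂ν k, x ∈ D k := fun k => ae_restrict_mem (c.mD k)
  have h23 : ∑' a : ℕ × Bool, η (D a.1) = 2 / 3 := by
    simp only [ENNReal.tsum_prod', tsum_fintype, Fintype.sum_bool, ENNReal.tsum_add, hη]
    rw [← ENNReal.add_div, one_add_one_eq_two]
  have hprob : IsProbabilityMeasure μ := ⟨by
    rw [hμ, mu_apply hP MeasurableSet.univ]
    simp only [preimage_univ, hνu, hη, h23]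
    rw [one_div, three_sum]⟩
  obtain ⟨U, hU, hUe⟩ := glue hD hP c.inj c.mu
  have hU0 : ∀ s ∈ D 0, U s = u none s := fun s hs => by rw [← hUe none s hs, c.P0]
  have hPi : ∀ i, InjOn (P i) (DD D i) := fun i s hs t ht h => (c.inj i i s hs t ht h).2
  have hS : ∀ᵐ x ∂μ, x ∈ ⋃ i, P i '' DD D i := by
    have h : ∀ a : ℕ × Bool, ∀ᵐ x ∂(ν a.1).map (P (some a)), x ∈ ⋃ i, P i '' DD D i := fun a =>
      (ae_map_mem_image (c.mD _) (hνD _) (hP _) (hPi (some a))).mono
        fun x hx => mem_iUnion.2 ⟨some a, hx⟩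
    rw [hμ]
    refine Measure.ae_sum_iff.2 fun k => ?_
    rw [ae_add_measure_iff, ae_add_measure_iff]
    exact ⟨⟨(hDa k).mono fun x hx => mem_iUnion.2 ⟨none, x, h0 k hx, c.P0 x⟩, h (k, true)⟩,
      h (k, false)⟩
  have hQ : ∀ x ∈ ⋃ i, P i '' DD D i, ∀ y ∈ ⋃ i, P i '' DD D i, ∀ z ∈ ⋃ i, P i '' DD D i,
      Q D P x y z (U x + U y + U z) := by
    simp only [mem_iUnion]
    rintro _ ⟨i, s, hs, rfl⟩ _ ⟨j, t, ht, rfl⟩ _ ⟨l, r, hr, rfl⟩
    rw [hUe i s hs, hUe j t ht, hUe l r hr]
    exact c.le i j l s hs t ht r hr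
  have hfin : 3 * ∫⁻ x, U x ∂μ ≠ ∞ := by
    refine ENNReal.mul_ne_top (by norm_num) (ne_top_of_le_ne_top (b := 2) (by norm_num) ?_)
    refine (lintegral_mono_ae (g := fun _ => 2) (hS.mono fun x hx => ?_)).trans (by simp)
    obtain ⟨i, s, hs, rfl⟩ := mem_iUnion.1 hx
    rw [hUe i s hs]
    exact c.bdd i s hs
  have hae : ∀ᵐ p ∂plan ν P, coulombCost p = U p.1 + U p.2.1 + U p.2.2 :=
    Measure.ae_sum_iff.2 fun k => branch_ae (hνD k) (hP _) (hP _) hU fun s hs => by
      rw [c.eq k s hs, hU0 s (h0 k hs), hUe (some (k, true)) s hs, hUe (some (k, false)) s hs]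
  have hco : IsCoupling μ (plan ν P) := hμ ▸ plan_coupling hP
  have hval : kantorovich μ = 3 * ∫⁻ x, U x ∂μ :=
    le_antisymm (kantorovich_le hco hU hae)
      (le_kantorovich hS hU fun x hx y hy z hz => (hQ x hx y hy z hz).1)
  have hopt : IsOptimal μ (plan ν P) := ⟨hco, by
    rw [hval, ← lintegral_coupling hco hU]
    exact lintegral_congr_ae hae⟩
  have hcon : ∀ π, IsOptimal μ π → ∀ᵐ p ∂π,
      ∃ k, ∃ x ∈ D k, p ∈ perms x (P (some (k, true)) x) (P (some (k, false)) x) := by
    intro π hπ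
    have hmem := coupling_ae_mem hπ.1 hS
    have hint := lintegral_coupling hπ.1 hU
    filter_upwards [hmem, ae_eq_of_ae_le_of_lintegral_le
      (hmem.mono fun p hp => (hQ _ hp.1 _ hp.2.1 _ hp.2.2).1) (by rw [hint]; exact hfin)
      measurable_coulombCost.aemeasurable (by rw [hint, hπ.2, hval])] with p hp hq
    exact (hQ _ hp.1 _ hp.2.1 _ hp.2.2).2 hq.symm
  have himg : ∀ a : ℕ × Bool, ∀ A, MeasurableSet A → A ⊆ D a.1 → μ (P (some a) '' A) ≤ η A := by
    intro a A hA hAD
    have h1 : ∀ k i, D k ⊆ DD D i → i ≠ some a → ν k (P i ⁻¹' (P (some a) '' A)) = 0 :=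
      fun k i hk hi => measure_mono_null (t := (D k)ᶜ)
        (fun x ⟨y, hy, h⟩ hx => hi (c.inj (some a) _ y (hAD hy) x (hk hx) h).1.symm) (hνD k)
    have h2 : ∀ k, ν k (P (some a) '' A) = 0 := fun k => by
      have := h1 k none (h0 k) (by simp)
      rwa [show P none = id from funext c.P0, preimage_id] at this
    rw [hμ, mu_apply hP (hA.image_of_measurable_injOn (hP _) ((hPi (some a)).mono hAD)),
      tsum_eq_single a fun b hb => h1 _ (some b) subset_rfl (by simpa using hb)]
    simp only [h2, tsum_zero, zero_add]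
    refine le_trans (measure_mono_ae ((hDa _).mono fun x hx h => ?_)) (Measure.restrict_le_self A)
    obtain ⟨y, hy, h⟩ := h
    exact hPi (some a) (hAD hy) hx h ▸ hy
  have upper : ∀ m, 2 / 3 + ∑ k ∈ Finset.range m, η (D k) ∈ upperBounds (graphMass μ m) := by
    rintro m _ ⟨π, hπ, T, hT, rfl⟩
    have hA : ∀ i (a : ℕ × Bool),
        MeasurableSet {x | x ∈ D m ∧ x ∈ D a.1 ∧ (T i x).1 = P (some a) x} := fun i a =>
      (c.mD m).inter ((c.mD _).inter (measurableSet_eq_fun (hT i).fst (hP _)))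
    have one : ∀ i, π {p | p.1 ∈ D m ∧ p.2 = T i p.1} ≤ η (D m) := by
      intro i
      have h1 : {p : E × E × E | p.1 ∈ D m ∧ p.2 = T i p.1} ≤ᵐ[π] ⋃ a : ℕ × Bool,
          (fun p => p.2.1) ⁻¹'
            (P (some a) '' {x | x ∈ D m ∧ x ∈ D a.1 ∧ (T i x).1 = P (some a) x}) := by
        filter_upwards [hcon π hπ] with p ⟨k, x, hx, hp⟩ hr
        have h2 : ∀ b, P (some (k, b)) x ∉ D m := fun b h => absurd
          (c.inj none (some (k, b)) _ (h0 m h) x hx (c.P0 _)).1 (by simp)
        obtain ⟨h3, h4⟩ := hr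
        simp only [perms, mem_insert_iff, mem_singleton_iff] at hp
        rcases hp with rfl | rfl | rfl | rfl | rfl | rfl
        · exact mem_iUnion.2 ⟨(k, true), x, ⟨h3, hx, (congrArg Prod.fst h4).symm⟩, rfl⟩
        · exact mem_iUnion.2 ⟨(k, false), x, ⟨h3, hx, (congrArg Prod.fst h4).symm⟩, rfl⟩
        all_goals exact absurd h3 (h2 _)
      refine (measure_mono_ae h1).trans ((measure_iUnion_le _).trans ?_)
      refine (ENNReal.tsum_le_tsum fun a => le_trans ?_
        (himg a _ (hA i a) fun x hx => hx.2.1)).trans ?_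
      · rw [← hπ.1.2.1]
        exact Measure.le_map_apply measurable_snd.fst.aemeasurable _
      rw [← measure_iUnion ?_ (hA i)]
      · exact measure_mono (iUnion_subset fun a x hx => hx.1)
      · intro a b hab
        exact disjoint_left.2 fun x h1 h2 => hab (Option.some.inj
          (c.inj (some a) (some b) x h1.2.1 x h2.2.1 (h1.2.2.symm.trans h2.2.2)).1)
    have hDc : μ (D m)ᶜ ≤ ∑ k ∈ Finset.range m, η (D k \ D m) + 2 / 3 := by
      rw [hμ, mu_apply hP (c.mD m).compl, ← h23, tsum_eq_sum (s := Finset.range m) fun k hk =>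
        measure_mono_null (compl_subset_compl.2 (c.anti (by simpa using hk))) (hνD k)]
      refine add_le_add (Finset.sum_le_sum fun k _ => ?_)
        (ENNReal.tsum_le_tsum fun a => (measure_mono (subset_univ _)).trans (hνu _).le)
      rw [Measure.restrict_apply (c.mD m).compl, inter_comm, sdiff_eq]
    calc π {p | ∃ i, p.2 = T i p.1}
        ≤ π ((fun p => p.1) ⁻¹' (D m)ᶜ ∪ ⋃ i, {p | p.1 ∈ D m ∧ p.2 = T i p.1}) := by
          refine measure_mono fun p ⟨i, hi⟩ => ?_
          by_cases h : p.1 ∈ D m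
          exacts [Or.inr (mem_iUnion.2 ⟨i, h, hi⟩), Or.inl h]
      _ ≤ ∑ k ∈ Finset.range m, η (D k \ D m) + 2 / 3 + ∑ _ : Fin m, η (D m) := by
          refine (measure_union_le _ _).trans (add_le_add ?_
            ((measure_iUnion_fintype_le _ _).trans (Finset.sum_le_sum fun i _ => one i)))
          rw [← Measure.map_apply measurable_fst (c.mD m).compl, hπ.1.1]
          exact hDc
      _ = _ := by
          rw [← Finset.sum_range fun _ => η (D m), add_right_comm, add_comm,
            ← Finset.sum_add_distrib]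
          congr 1
          refine Finset.sum_congr rfl fun k hk => ?_
          rw [← measure_sdiff_add_inter (D k) (c.mD m),
            inter_eq_self_of_subset_right (c.anti (Finset.mem_range.1 hk).le)]
  have hT : ∀ k : ℕ, ∃ g : E → E × E, Measurable g ∧
      (∀ s ∈ D 0, g s = (P (some (k, true)) s, P (some (k, false)) s)) ∧ ∀ j, ∀ s ∈ D j,
        g (P (some (j, true)) s) = (P (some (j, false)) s, s) ∧
        g (P (some (j, false)) s) = (s, P (some (j, true)) s) := fun k => by
    obtain ⟨g, hg, h⟩ := glue hD hP c.inj (f := fun i s => match i with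
      | none => (P (some (k, true)) s, P (some (k, false)) s)
      | some (j, true) => (P (some (j, false)) s, s)
      | some (j, false) => (s, P (some (j, true)) s)) (by
        rintro (_ | ⟨j, _ | _⟩)
        exacts [(hP _).prodMk (hP _), measurable_id.prodMk (hP _), (hP _).prodMk measurable_id])
    exact ⟨g, hg, fun s hs => by simpa [c.P0] using h none s hs,
      fun j s hs => ⟨h (some (j, true)) s hs, h (some (j, false)) s hs⟩⟩
  choose T hT hT0 hT1 using hT
  refine ⟨hprob, by rw [hval]; exact hfin.lt_top, ⟨_, hopt⟩, upper, fun m hm => ?_, ?_⟩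
  · refine ⟨plan ν P, hopt, fun i => T i, fun i => hT _,
      le_antisymm (upper m ⟨_, hopt, _, fun i => hT _, rfl⟩) ?_⟩
    set G := {p : E × E × E | ∃ i : Fin m, p.2 = T i p.1} with hG
    have key : ∀ k, ∀ f : E → E × E × E, Measurable f → (∀ s ∈ D k, f s ∈ G) →
        η (D k) ≤ (ν k).map f G := fun k f hf h => le_trans (by
      rw [← hνu]
      exact measure_mono_ae ((hDa k).mono fun x hx _ => h x hx))
        (Measure.le_map_apply hf.aemeasurable _)
    have h1 : ∀ k, (if k ∈ Finset.range m then η (D k) else 0) + η (D k) + η (D k) ≤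
        branch (ν k) (P (some (k, true))) (P (some (k, false))) G := fun k => by
      rw [branch, Measure.add_apply, Measure.add_apply]
      refine add_le_add (add_le_add ?_ (key k _ ((hP _).prodMk ((hP _).prodMk measurable_id))
        fun s hs => ⟨⟨0, hm⟩, (hT1 _ k s hs).1.symm⟩))
        (key k _ ((hP _).prodMk (measurable_id.prodMk (hP _)))
          fun s hs => ⟨⟨0, hm⟩, (hT1 _ k s hs).2.symm⟩)
      split_ifs with h
      · exact key k _ (measurable_id.prodMk ((hP _).prodMk (hP _)))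
          fun s hs => ⟨⟨k, Finset.mem_range.1 h⟩, (hT0 _ s (h0 k hs)).symm⟩
      · exact zero_le
    refine le_trans ?_ ((ENNReal.tsum_le_tsum h1).trans (Measure.le_sum_apply _ _))
    rw [ENNReal.tsum_add, ENNReal.tsum_add, hη, tsum_eq_sum (s := Finset.range m) fun k hk =>
      if_neg hk, Finset.sum_ite_of_true fun k hk => hk, add_assoc, ← ENNReal.add_div,
      one_add_one_eq_two, add_comm]
  · obtain ⟨f, hf⟩ := exists_surjective_nat (ℕ × Bool)
    let T' : ℕ × Bool → E → E × E := fun a x => if a.2 then T a.1 x else (T a.1 x).swap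
    refine ⟨fun i => T' (f i), fun i => ?_, fun π hπ => ?_⟩
    · cases h : (f i).2
      · simpa [T', h, comp_def] using measurable_swap.comp (hT _)
      · simpa [T', h] using hT _
    have h1 : π univ = 1 := by
      rw [← measure_univ (μ := μ), ← hπ.1.1, Measure.map_apply measurable_fst MeasurableSet.univ,
        preimage_univ]
    rw [← h1]
    refine measure_congr (ae_eq_univ.2 ?_)
    refine ((hcon π hπ).mono fun p ⟨k, x, hx, hp⟩ => ?_ : ∀ᵐ p ∂π, ∃ i, p.2 = T' (f i) p.1)
    rw [← hf.exists (p := fun a => p.2 = T' a p.1)]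
    have a0 := hT0 k x (h0 k hx)
    have a1 := hT1 k k x hx
    simp only [perms, mem_insert_iff, mem_singleton_iff] at hp
    rcases hp with rfl | rfl | rfl | rfl | rfl | rfl
    exacts [⟨(k, true), a0.symm⟩, ⟨(k, false), (congrArg Prod.swap a0).symm⟩,
      ⟨(k, false), (congrArg Prod.swap a1.1).symm⟩, ⟨(k, true), a1.1.symm⟩,
      ⟨(k, true), a1.2.symm⟩, ⟨(k, false), (congrArg Prod.swap a1.2).symm⟩]

theorem tsum_tail {a : ℕ → ℝ≥0∞} (ha : Antitone a) (h : ∑' k, a k ≠ ∞) (k : ℕ) :
    ∑' j, (if k ≤ j then a j - a (j + 1) else 0) = a k := by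
  have h1 : ∀ n, k ≤ n →
      ∑ j ∈ Finset.range n, (if k ≤ j then a j - a (j + 1) else 0) + a n = a k := fun n hn => by
    induction n, hn using Nat.le_induction with
    | base => rw [Finset.sum_eq_zero fun j hj => if_neg (by simpa using hj), zero_add]
    | succ n hn ih => rw [Finset.sum_range_succ, if_pos hn, add_assoc,
        tsub_add_cancel_of_le (ha n.le_succ), ih]
  have h2 := (ENNReal.tendsto_nat_tsum fun j => if k ≤ j then a j - a (j + 1) else 0).add
    (ENNReal.tendsto_atTop_zero_of_tsum_ne_top h)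
  rw [add_zero] at h2
  exact tendsto_nhds_unique h2 (tendsto_const_nhds.congr'
    ((eventually_ge_atTop k).mono fun n hn => (h1 n hn).symm))

theorem main_a {E : Type*} [NormedAddCommGroup E] [InnerProductSpace ℝ E] [FiniteDimensional ℝ E]
    [MeasurableSpace E] [BorelSpace E] {e₁ e₂ : E} (h1 : ‖e₁‖ = 1) (h2 : ‖e₂‖ = 1)
    (h12 : ⟪e₁, e₂⟫ = 0) {a : ℕ → ℝ≥0∞} (ha : Antitone a) (hs : ∑' k, a k = 1 / 3) :
    ∃ μ : Measure E, μ ≪ volume ∧ IsProbabilityMeasure μ ∧ kantorovich μ < ⊤ ∧
      (∃ π, IsOptimal μ π) ∧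
      (∀ m, 2 / 3 + ∑ k ∈ Finset.range m, a k ∈ upperBounds (graphMass μ m)) ∧
      (∀ m, 1 ≤ m → 2 / 3 + ∑ k ∈ Finset.range m, a k ∈ graphMass μ m) ∧
      ∃ T : ℕ → E → E × E, (∀ i, Measurable (T i)) ∧
        ∀ π, IsOptimal μ π → π {p | ∃ i, p.2 = T i p.1} = 1 := by
  obtain ⟨τ, P, u, τ0, hdis, c, lip⟩ := exists_cfg h1 h2 h12
  set L : ℕ → Set E := fun j => ball (τ j • e₁) (τ j / 10) with hL
  set D : ℕ → Set E := fun k => ⋃ j ≥ k, L j with hD
  let η : Measure E :=
    Measure.sum fun j => ((a j - a (j + 1)) * (volume (L j))⁻¹) • volume.restrict (L j)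
  have hη : ∀ k, η (D k) = a k := fun k => by
    rw [← tsum_tail ha (by simp [hs]) k, Measure.sum_apply _ (c.mD k)]
    refine tsum_congr fun j => ?_
    rw [Measure.smul_apply, Measure.restrict_apply (c.mD k), smul_eq_mul]
    split_ifs with h
    · rw [inter_eq_self_of_subset_right (show L j ⊆ D k from subset_biUnion_of_mem (u := L) h), mul_assoc,
        ENNReal.inv_mul_cancel (measure_ball_pos _ _ (by linarith [τ0 j])).ne'
          measure_ball_lt_top.ne, mul_one]
    · rw [disjoint_iff_inter_eq_empty.1 (disjoint_iUnion₂_left.2 fun i hi =>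
        hdis (fun h3 : i = j => h (h3 ▸ hi))), measure_empty, mul_zero]
  have hac : η ≪ volume := Measure.absolutelyContinuous_sum_left fun j =>
    Measure.absolutelyContinuous_restrict.smul_left _
  have := abstr c η (by simp only [hη, hs]) rfl
  simp only [hη] at this
  refine ⟨_, Measure.AbsolutelyContinuous.mk fun A hA h => ?_, this⟩
  have h0 : ∀ b : ℕ × Bool, η.restrict (D b.1) (P (some b) ⁻¹' A) = 0 := fun b => by
    obtain ⟨K, hK⟩ := lip (some b)
    refine hac.restrict _ ?_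
    rw [← Measure.map_apply (c.mP _) hA]
    exact ((Measure.absolutelyContinuous_of_le (map_restrict_le _ (c.mP _) _ K hK)).trans
      Measure.smul_absolutelyContinuous) h
  have h3 : ∀ k, η.restrict (D k) A = 0 := fun k =>
    (Measure.absolutelyContinuous_restrict.trans hac) h
  rw [mu_apply c.mP hA]
  simp [h0, h3]

theorem main_d (d : ℕ) (hd : 2 ≤ d) {a : ℕ → ℝ≥0∞} (ha : Antitone a) (hs : ∑' k, a k = 1 / 3) :
    ∃ μ : Measure (EuclideanSpace ℝ (Fin d)), μ ≪ volume ∧ IsProbabilityMeasure μ ∧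
      kantorovich μ < ⊤ ∧ (∃ π, IsOptimal μ π) ∧
      (∀ m, 2 / 3 + ∑ k ∈ Finset.range m, a k ∈ upperBounds (graphMass μ m)) ∧
      (∀ m, 1 ≤ m → 2 / 3 + ∑ k ∈ Finset.range m, a k ∈ graphMass μ m) ∧
      ∃ T : ℕ → _ → _ × _, (∀ i, Measurable (T i)) ∧
        ∀ π, IsOptimal μ π → π {p | ∃ i, p.2 = T i p.1} = 1 := by
  have h0 : 0 < d := by omega
  exact main_a (e₁ := EuclideanSpace.single ⟨0, h0⟩ 1)
    (e₂ := EuclideanSpace.single ⟨1, hd⟩ 1) (by simp) (by simp)
    (by simp [EuclideanSpace.inner_single_left]) ha hs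

theorem main_inf (d : ℕ) (hd : 2 ≤ d) :
    ∃ μ : Measure (EuclideanSpace ℝ (Fin d)), IsProbabilityMeasure μ ∧ μ ≪ volume ∧
      kantorovich μ < ⊤ ∧ (∃ π, IsOptimal μ π) ∧
      ∀ m, ∃ r < 1, r ∈ upperBounds (graphMass μ m) := by
  obtain ⟨a, ha, hs, h0⟩ : ∃ a : ℕ → ℝ≥0∞, Antitone a ∧ ∑' k, a k = 1 / 3 ∧ ∀ k, a k ≠ 0 := by
    refine ⟨fun k => 1 / 3 * (2 : ℝ≥0∞)⁻¹ ^ (k + 1), fun k l h => mul_le_mul_right
      (pow_le_pow_right_of_le_one' (by simp) (Nat.succ_le_succ h)) _, ?_, fun k => by simp⟩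
    rw [ENNReal.tsum_mul_left, ENNReal.tsum_geometric_add_one, ENNReal.one_sub_inv_two, inv_inv,
      ENNReal.inv_mul_cancel two_ne_zero ENNReal.ofNat_ne_top, mul_one]
  obtain ⟨μ, h1, h2, h3, h4, h5, -⟩ := main_d d hd ha hs
  refine ⟨μ, h2, h1, h3, h4, fun m => ⟨_, ?_, h5 m⟩⟩
  have h6 := Summable.sum_add_tsum_nat_add' (f := a) (k := m) ENNReal.summable
  rw [add_comm, ← three_sum, ← one_div, ENNReal.add_lt_add_iff_right (by finiteness), ← hs, ← h6]
  exact ENNReal.lt_add_right (ne_top_of_le_ne_top (by simp [hs]) (le_self_add.trans h6.le))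
    fun h => h0 _ (ENNReal.tsum_eq_zero.1 h 0)

end Vale.Agent.N121X
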